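import Vale.Agent.P011.H305.Three2
import Vale.Agent.P011.H518.R8.Solv
import Vale.Agent.P011.H974.DblF
import Vale.Agent.P011.H27.C2.ExT2
import Vale.Agent.P011.H732D.C2.Red2
import Vale.Agent.P011.H738.C2.T4

/-!
# The solvable step over global function fields of characteristic two

The induction on the degree.
-/

open Module
open scoped commutatorElement

set_option linter.unusedSectionVars false

namespace Vale.Agent.P011.H871.C2

open Vale.Agent.P011.H738 Vale.Agent.P011.H271 Vale.Agent.P011.H305 Vale.Agent.P011.H698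
open Vale.Agent.P011.H961 (SetG)
open Vale.Agent.P011.H738.C2 (GoodE)

/-- The solvable step in degree `n` over the global function fields of characteristic two. -/
def Solv2 (n : ℕ) : Prop :=
  ∀ (k K A : Type) [Field k] [GFF k] [Field K] [StarRing K] [Ring A] [StarRing A]
    [Algebra k K] [Algebra k A] [Algebra K A] [IsScalarTower k K A] [StarModule K A],
    (2 : k) = 0 → Anis k K A n → ∀ (Ω : Type) [Field Ω] [Algebra K Ω]
    (f : A →ₐ[K] Matrix (Fin n) (Fin n) Ω) (N : ℕ) (B : Basis (Fin N) k A), SolvAtF k K f B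

/-- The good fields attached to the symmetric elements. -/
def GE2 (m : ℕ) : Prop :=
  ∀ (k K A : Type) [Field k] [GFF k] [Field K] [StarRing K] [Ring A] [StarRing A]
    [Algebra k K] [Algebra k A] [Algebra K A] [IsScalarTower k K A] [StarModule K A],
    (2 : k) = 0 → Anis k K A (2 * m) → ∀ (κ : K) (ν : k), κ + star κ = 1 →
    κ * star κ = algebraMap k K ν → ∀ (a : k) (t : A), star t = t →
    t * t + t = algebraMap k A a → (∀ z : k, z * z + z ≠ a) →
    (∀ c : A, c * t = t * c → c ≠ 0 → IsUnit c) → GoodE k (a + ν) t m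

section letters

variable {k K A : Type} [Field k] [Field K] [StarRing K] [Ring A] [StarRing A]
  [Algebra k K] [Algebra k A] [Algebra K A] [IsScalarTower k K A] [StarModule K A] {n N : ℕ}

/-- The letters of the quadratic extension. -/
theorem exists_kappa (h2 : (2 : k) = 0) (hA : Anis k K A n) :
    ∃ (κ : K) (ν : k), κ + star κ = 1 ∧ κ * κ + κ = algebraMap k K ν ∧
      κ * star κ = algebraMap k K ν := by
  have h2K : (2 : K) = 0 := by rw [← map_ofNat (algebraMap k K) 2, h2, map_zero]
  obtain ⟨u, hu⟩ := hA.star_ne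
  have h0 : u + star u ≠ 0 := fun h => hu (by linear_combination h - u * h2K)
  have hs : star (u + star u) = u + star u := by rw [star_add, star_star, add_comm]
  obtain ⟨κ, hκ⟩ : ∃ κ, κ = u / (u + star u) := ⟨_, rfl⟩
  have h1 : κ + star κ = 1 := by
    rw [hκ, star_div₀, hs, ← add_div, div_self h0]
  have h3 : star κ = 1 - κ := by rw [← h1]; ring
  obtain ⟨ν, hν⟩ := (hA.fixed (κ * κ + κ)).mp (by
    rw [star_add, star_mul, h3]
    linear_combination (1 - 2 * κ) * h2K)
  refine ⟨κ, ν, h1, hν.symm, ?_⟩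
  rw [hν, h3]
  linear_combination (-(κ * κ)) * h2K

end letters

/-- **Doubling the degree in characteristic two.** -/
theorem solv_double2 {m : ℕ} (hm : 2 ≤ m) (hGE : GE2 m) (hMP : 3 ≤ m → Solv2 m) :
    Solv2 (2 * m) := by
  intro k K A _ _ _ _ _ _ _ _ _ _ _ h2 hA Ω _ _ f N B
  obtain ⟨κ, ν, hκ, hν, hν'⟩ := exists_kappa h2 hA
  have hm0 : 0 < m := by omega
  obtain ⟨a, t, hts, htt, ha, han, hdiv⟩ := H27.C2.exists_t2 h2 hA hm0 rfl hκ hν
  have hge : GoodE k (a + ν) t m := hGE k K A h2 hA κ ν hκ hν' a t hts htt ha hdiv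
  refine H732R.solvAt_of_ab2 (H974.R8.isGlobal_of_gff k) h2 hA (by omega) hm0 rfl hκ hν hts htt ha
    han hdiv f B fun Q hQ hi T₀ ε₀ hε₀ hHQ => ?_
  obtain ⟨L, _, _, _, K', _, _, _, _, C, _, _, _, _, _, _, T, j, hSC, hC, h⟩ :=
    H169.C2.exists_isCent2 h2 hA hm0 rfl hts htt ha hdiv
  by_cases h3 : 3 ≤ m
  · have := hSC.starModule
    have := hSC.finK
    have := hSC.fin
    have := hSC.cen
    have hLC : FiniteDimensional L C := FiniteDimensional.trans L K' C
    have h2L : (2 : L) = 0 := by rw [← map_ofNat (algebraMap k L) 2, h2, map_zero]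
    obtain ⟨g⟩ := Vale.Agent.P011S.exists_split (K := K') (D := C) hC (AlgebraicClosure K')
    exact H738.C2.abAt_2 h2 hA hm0 rfl hSC hC h hts hκ hν' f B Q hi hε₀ hHQ hge g (finBasis L C)
      fun N' hN' hi' => near_of_solv (H974.R8.isGlobal_of_gff L) (hSC.anis hC) h3 g (finBasis L C)
        (hMP h3 L K' C h2L (hSC.anis hC) _ g _ (finBasis L C)) N' hi'
  · obtain rfl : m = 2 := by omega
    exact H738.C2.abAt_two2 h2 hA rfl hSC hC h hts hκ hν' f B (H738.C2.sgp_imA Q) hε₀ hHQ hge

/-- The solvable step in degree `n` for the division algebras over global function fields. -/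
def SolvO (n : ℕ) : Prop :=
  ∀ (k K D : Type) [Field k] [GFF k] [Field K] [StarRing K] [DivisionRing D] [StarRing D]
    [Algebra k K] [Algebra k D] [Algebra K D] [IsScalarTower k K D] [StarModule K D],
    (2 : k) = 0 → Anis k K D n → ∀ (Ω : Type) [Field Ω] [Algebra K Ω]
    (f : D →ₐ[K] Matrix (Fin n) (Fin n) Ω) (N : ℕ) (B : Basis (Fin N) k D), SolvAtF k K f B

theorem solv_odd2 {n : ℕ} (hn : Odd n) (h : SolvO n) : Solv2 n := by
  intro k K A _ _ _ _ _ _ _ _ _ _ _ h2 hA Ω _ _ f N B
  have hn0 : n ≠ 0 := by rintro rfl; exact absurd hn (by decide)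
  have hdiv : ∀ x : A, x ≠ 0 → IsUnit x := by
    by_contra hcon
    push Not at hcon
    obtain ⟨P⟩ := H518.R8.exists_pe hA hn0 hcon
    obtain ⟨d, hd, -⟩ := P.exists_deg hA.finrank_eq
    rw [hd] at hn
    exact (Nat.not_odd_iff_even.mpr ⟨d, by ring⟩) hn
  have := hA.simple
  let _ : DivisionRing A := DivisionRing.ofIsUnitOrEqZero fun x => by
    by_cases hx : x = 0
    · exact Or.inr hx
    · exact Or.inl (hdiv x hx)
  exact h k K A h2 hA Ω f N B

/-- **The induction on the degree.** -/
theorem solv2_all (hodd : ∀ n, 3 ≤ n → Odd n → SolvO n) (hGE : ∀ m, 2 ≤ m → GE2 m) :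
    ∀ n, 3 ≤ n → Solv2 n := by
  intro n
  induction n using Nat.strong_induction_on with
  | _ n ih =>
    intro hn
    rcases Nat.even_or_odd n with he | ho
    · obtain ⟨m, rfl⟩ := he
      rw [← two_mul] at hn ih ⊢
      have hm : 2 ≤ m := by omega
      exact solv_double2 hm (hGE m hm) fun h3 => ih m (by omega) h3
    · exact solv_odd2 ho (hodd n hn ho)

/-- The powers of two: no division algebra of odd degree is needed. -/
theorem solv2_pow (hGE : ∀ m, 2 ≤ m → GE2 m) : ∀ e, 2 ≤ e → Solv2 (2 ^ e) := by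
  intro e he
  induction e, he using Nat.le_induction with
  | base => exact solv_double2 le_rfl (hGE 2 le_rfl) fun h => absurd h (by omega)
  | succ e he ih =>
    have h4 : 2 ^ 2 ≤ 2 ^ e := Nat.pow_le_pow_right (by omega) he
    rw [pow_succ, mul_comm]
    exact solv_double2 (by omega) (hGE _ (by omega)) fun _ => ih

section final

variable {k K A Ω : Type} [Field k] [Field K] [StarRing K] [Ring A] [StarRing A]
  [Algebra k K] [Algebra k A] [Algebra K A] [IsScalarTower k K A] [StarModule K A] {n : ℕ}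
  [Field Ω] [Algebra K Ω]

/-- The preimages of the open subgroups of the trivial group. -/
theorem eq_top_of_open {f : A →ₐ[K] Matrix (Fin n) (Fin n) Ω} {S : Set (Place k)}
    {δ : H732F.GK f →* H732F.HA A n S} (hS : ∀ v, v ∉ S) {N : Subgroup (H732F.GK f)}
    (h : H732F.IsOpenPreimage δ N) :
    N = ⊤ := by
  obtain ⟨W, -, rfl, -⟩ := h
  rw [eq_top_iff]
  intro g _
  have h1 : δ g = 1 := funext fun v => absurd v.2 (hS v)
  change δ g ∈ W
  rw [h1]
  exact W.one_mem

/-- **The conjecture** in the degree `n` over the global function fields of characteristic two,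
from the solvable step. -/
theorem all_two (hS : Solv2 n) (hk : IsGlobalFunctionField k) (hA : Anis k K A n) (hn : 3 ≤ n)
    (h2 : (2 : k) = 0) (f : A →ₐ[K] Matrix (Fin n) (Fin n) Ω) :
    ∃ δ : H732F.GK f →* H732F.HA A n (H732F.Adiv k K A), H732F.IsDiagonal δ ∧ DenseRange δ ∧
      ∀ M : Subgroup (H732F.GK f), M.index ≠ 0 → H732F.IsOpenPreimage δ M ∧
        ((∃ x : A, x ≠ 0 ∧ ¬ IsUnit x) → M = ⊤) := by
  have hgff : GFF k := gff_of_isGlobal hk
  have hKf : FiniteDimensional k K := (H519.quad hA.fixed hA.star_ne).1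
  have hAf : FiniteDimensional K A := FiniteDimensional.of_finrank_pos (by
    rw [hA.finrank_eq]; positivity)
  have hAk : FiniteDimensional k A := Module.Finite.trans K A
  obtain ⟨δ, h1, h2', h3⟩ := H305.all_of_solvF hk hA hn f (Module.finBasis k A)
    (hS k K A h2 hA Ω f _ (Module.finBasis k A))
  refine ⟨δ, h1, h2', fun M hM => ⟨h3 M hM, fun hdiv => ?_⟩⟩
  exact eq_top_of_open (fun v hv => H518.R8.adiv_empty hA (by omega) hdiv v hv) (h3 M hM)

end final

end Vale.Agent.P011.H871.C2
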