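import Vale.Agent.P011.H871.C2.Main
import Vale.Agent.P011.H543.C2.GoodE

/-!
# Characteristic two: the good fields
-/

open Module

set_option linter.unusedSectionVars false

namespace Vale.Agent.P011.H871.C2

open Vale.Agent.P011.H738 Vale.Agent.P011.H271

theorem ge2 {m : ℕ} (hm : 0 < m) : GE2 m := by
  intro k K A _ _ _ _ _ _ _ _ _ _ _ h2 hA κ ν hκ hν a t hts htt hta hC
  have e : a + ν + a = ν := by linear_combination a * h2
  exact H543.C2.exists_goodE2 h2 hm hA hκ (ν := a + ν) (by rw [e]; exact hν) hts htt hta hC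

/-- The solvable step in the degrees which are powers of two. -/
theorem solv2_two_pow {e : ℕ} (he : 2 ≤ e) : Solv2 (2 ^ e) :=
  solv2_pow (fun _ hm => ge2 (by omega)) e he

end Vale.Agent.P011.H871.C2
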