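import Vale.Agent.P011.H871.C2.LocFin
import Vale.Agent.P011.H496.NumF
import Vale.Agent.P011.H167.RhoFA
import Vale.Agent.P011.H271.S3aB

/-!
# Artin-Schreier elements `p ^ 2 + p + g r ^ 2` in the ground field
-/

open Module

set_option linter.unusedSectionVars false

namespace Vale.Agent.P011.H871.C2

open Vale.Agent.P011.H738 Vale.Agent.P011.H271 Vale.Agent.P011.H961.C2
open Vale.Agent.P011.H271.S3

section norm

variable {F : Type} [Field F]

/-- Local: the elements of the group have `g` as a norm. -/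
theorem ln_of_sg (h2 : (2 : F) = 0) {ω : Place F} {a g : F}
    (h : Sg (algebraMap F ω.comp g) (algebraMap F ω.comp a)) : LN2 ω a g := by
  have h3 := two_comp h2 ω
  obtain ⟨z, w, hzw⟩ := h
  by_cases hw : w = 0
  · refine Spl2.ln h2 ⟨z, ?_⟩ g
    rw [hzw, hw]
    ring
  · refine ⟨z / w, 1 / w, ?_⟩
    rw [hzw]
    field_simp
    linear_combination (z ^ 2 + z) * h3

/-- Global: the elements such that `g` is a norm are in the group. -/
theorem sg_of_norm (h2 : (2 : F) = 0) {a g : F} (hg : ¬ IsSquare g)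
    (h : ∃ x y : F, x ^ 2 + x * y + a * y ^ 2 = g) : Sg g a := by
  obtain ⟨x, y, hxy⟩ := h
  have hy : y ≠ 0 := by
    rintro rfl
    exact hg ⟨x, by rw [← hxy]; ring⟩
  refine ⟨x / y, 1 / y, ?_⟩
  field_simp
  linear_combination hxy - (x ^ 2 + x * y) * h2

end norm

/-- An element with a pole of odd order is not of the form `z ^ 2 + z + c`, `c` integral. -/
theorem odd_pole {k : Type} [Field k] {v : Place k} {a c : k} {j : ℕ}
    (ha : v.abv a = (qq v : ℝ) ^ (2 * j + 1)) (hc : v.abv c ≤ 1) (z : k) : z ^ 2 + z ≠ a + c := by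
  intro h
  have hq := one_lt_qq' v
  have hq0 : (0 : ℝ) < qq v := one_pos.trans hq
  have ha1 : 1 < v.abv a := by
    rw [ha]
    exact one_lt_pow₀ hq (by omega)
  have hac : v.abv (a + c) = v.abv a := by
    refine le_antisymm ((v.nonarch _ _).trans (max_le le_rfl (hc.trans ha1.le))) ?_
    have e : a = (a + c) + -c := by ring
    have h1 := v.nonarch (a + c) (-c)
    rw [← e, AbsoluteValue.map_neg] at h1
    rcases le_max_iff.mp h1 with h2 | h2
    · exact h2
    · exact absurd (h2.trans hc) (not_le.mpr ha1)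
  have hz1 : 1 < v.abv z := by
    by_contra hcon
    rw [not_lt] at hcon
    have h1 : v.abv (z ^ 2 + z) ≤ 1 := by
      refine (v.nonarch _ _).trans (max_le ?_ hcon)
      rw [map_pow]
      exact pow_le_one₀ (v.abv.nonneg _) hcon
    rw [h, hac] at h1
    exact absurd h1 (not_le.mpr ha1)
  have hz0 : z ≠ 0 := by
    rintro rfl
    rw [map_zero] at hz1
    linarith
  have hlt : v.abv z < v.abv (z ^ 2) := by
    rw [map_pow, sq]
    exact lt_mul_of_one_lt_left (one_pos.trans hz1) hz1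
  have h1 : v.abv (z ^ 2 + z) = v.abv (z ^ 2) := by
    refine le_antisymm ((v.nonarch _ _).trans (max_le le_rfl hlt.le)) ?_
    have e : z ^ 2 = (z ^ 2 + z) + -z := by ring
    have h2 := v.nonarch (z ^ 2 + z) (-z)
    rw [← e, AbsoluteValue.map_neg] at h2
    rcases le_max_iff.mp h2 with h3 | h3
    · exact h3
    · exact absurd h3 (not_le.mpr hlt)
  rw [h, hac, ha, map_pow, ml_spec v hz0, ← zpow_natCast, ← zpow_natCast, ← zpow_mul] at h1
  have h2 := zpow_right_injective₀ hq0 hq.ne' h1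
  push_cast at h2
  omega

variable {k M : Type} [Field k] [GFF k] [Field M] [GFF M] [Algebra k M] [Algebra.IsAlgebraic k M]

/-- **The number `a`**. -/
theorem exists_a (h2 : (2 : k) = 0) {g : M} (hg : ¬ IsSquare g)
    (hsq : ∀ (ω : Place M) (t : ω.comp), ¬ IsSquare t → ∀ x : ω.comp,
      ∃ u w : ω.comp, x = u ^ 2 + t * w ^ 2)
    (c₀ : k) (S : Finset (Place k)) {ε : ℝ} (hε : 0 < ε) :
    ∃ (a : k) (p r : M), algebraMap k M a = p ^ 2 + p + g * r ^ 2 ∧ (∀ v ∈ S, v.abv a < ε) ∧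
      (∀ z : k, z ^ 2 + z ≠ a) ∧ (∀ z : k, z ^ 2 + z ≠ a + c₀) := by
  classical
  have h2M : (2 : M) = 0 := by
    rw [← map_ofNat (algebraMap k M) 2, h2, map_zero]
  have hg0 : g ≠ 0 := by
    rintro rfl
    exact hg ⟨0, (mul_zero 0).symm⟩
  -- the finite sets
  have hbadf := finite_below (k := k) (place_finite hg0)
  obtain ⟨S', hS'⟩ : ∃ S' : Finset (Place k), S' = S ∪ hbadf.toFinset := ⟨_, rfl⟩
  obtain ⟨v₁, hv₁⟩ := H167.RhoF.exists_notMem (k := k) S'
  have hcf : {v : Place k | 1 < v.abv c₀}.Finite := finite_gt c₀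
  obtain ⟨v₂, hv₂⟩ := H167.RhoF.exists_notMem (k := k) (insert v₁ (S' ∪ hcf.toFinset))
  rw [Finset.mem_insert, Finset.mem_union, not_or, not_or] at hv₂
  obtain ⟨h21, h2S, h2c⟩ := hv₂
  have hc₂ : v₂.abv c₀ ≤ 1 := by
    by_contra hcon
    exact h2c (hcf.mem_toFinset.mpr (not_le.mp hcon))
  obtain ⟨x₂, hx₂⟩ := v₂.normalized.2.1
  change v₂.abv x₂ = (qq v₂ : ℝ) at hx₂
  have hq := one_lt_qq' v₂
  -- the sequence
  have hy : ∀ j : ℕ, ∃ y : k, (∀ v ∈ S', v.abv y < min ε 1) ∧
      v₂.abv y = (qq v₂ : ℝ) ^ (2 * j + 1) ∧ ∀ v ∉ S', v ≠ v₂ → v ≠ v₁ → v.abv y ≤ 1 := by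
    intro j
    obtain ⟨y, hy1, hy2⟩ := H496.NumF.near_int_fam (S := insert v₂ (S' : Set (Place k)))
      ((Finset.finite_toSet S').insert v₂) v₁ (by
        rw [Set.mem_insert_iff, not_or]
        exact ⟨fun h => h21 h.symm, fun h => hv₁ (Finset.mem_coe.mp h)⟩)
      (fun v => if v = v₂ then x₂ ^ (2 * j + 1) else 0) (fun v => min ε 1)
      (fun v _ => lt_min hε one_pos)
    refine ⟨y, fun v hv => ?_, ?_, fun v hv hv2 hv1 => ?_⟩
    · have h3 := hy1 v (Set.mem_insert_of_mem _ (Finset.mem_coe.mpr hv))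
      have hne : v ≠ v₂ := by
        rintro rfl
        exact h2S hv
      rw [if_neg hne, sub_zero] at h3
      exact h3
    · have h3 := hy1 v₂ (Set.mem_insert _ _)
      rw [if_pos rfl] at h3
      have h4 : v₂.abv (x₂ ^ (2 * j + 1)) = (qq v₂ : ℝ) ^ (2 * j + 1) := by rw [map_pow, hx₂]
      have h5 : 1 < v₂.abv (x₂ ^ (2 * j + 1)) := by
        rw [h4]
        exact one_lt_pow₀ hq (by omega)
      have h6 : v₂.abv (y - x₂ ^ (2 * j + 1)) < v₂.abv (x₂ ^ (2 * j + 1)) :=
        (h3.trans_le (min_le_right _ _)).trans h5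
      rw [← h4]
      refine le_antisymm ?_ ?_
      · have e : y = (y - x₂ ^ (2 * j + 1)) + x₂ ^ (2 * j + 1) := by ring
        have h7 := v₂.nonarch (y - x₂ ^ (2 * j + 1)) (x₂ ^ (2 * j + 1))
        rw [← e] at h7
        exact h7.trans (max_le h6.le le_rfl)
      · have e : x₂ ^ (2 * j + 1) = y + -(y - x₂ ^ (2 * j + 1)) := by ring
        have h7 := v₂.nonarch y (-(y - x₂ ^ (2 * j + 1)))
        rw [← e, AbsoluteValue.map_neg] at h7
        rcases le_max_iff.mp h7 with h8 | h8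
        · exact h8
        · exact absurd h8 (not_le.mpr h6)
    · refine hy2 v (fun h => ?_) hv1
      rcases Set.mem_insert_iff.mp h with h3 | h3
      · exact hv2 h3
      · exact hv (Finset.mem_coe.mp h3)
  choose y hyS hy2 hyi using hy
  -- the classes
  have hΩf : {ω : Place M | ∃ v ∈ ({v₁, v₂} : Set (Place k)), Ab ω v}.Finite :=
    finite_above (by simp)
  choose nc cl hcl using fun ω : Place M => exists_cls h2M (ω := ω)
    (g := algebraMap M ω.comp g) ((_root_.map_ne_zero _).mpr hg0) (fun h => hsq ω _ h)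
  have := hΩf.to_subtype
  obtain ⟨i, j, hij, hcls⟩ := Finite.exists_ne_map_eq_of_infinite
    (fun (j : ℕ) (ω : {ω : Place M | ∃ v ∈ ({v₁, v₂} : Set (Place k)), Ab ω v}) =>
      cl (ω : Place M) (algebraMap M (ω : Place M).comp (algebraMap k M (y j))))
  have hcls' : ∀ ω : Place M, (∃ v ∈ ({v₁, v₂} : Set (Place k)), Ab ω v) →
      Sg (algebraMap M ω.comp g) (algebraMap M ω.comp (algebraMap k M (y i + y j))) := by
    intro ω hω
    rw [map_add, map_add]
    exact hcl ω _ _ (congrFun hcls ⟨ω, hω⟩)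
  -- the element
  have hodd : ∃ l : ℕ, v₂.abv (y i + y j) = (qq v₂ : ℝ) ^ (2 * l + 1) := by
    have key : ∀ i j : ℕ, i < j → v₂.abv (y i + y j) = (qq v₂ : ℝ) ^ (2 * j + 1) := by
      intro i j hij
      have h3 : v₂.abv (y i) < v₂.abv (y j) := by
        rw [hy2, hy2]
        exact pow_lt_pow_right₀ hq (by omega)
      rw [← hy2 j]
      refine le_antisymm ((v₂.nonarch _ _).trans (max_le h3.le le_rfl)) ?_
      have e : y j = (y i + y j) + -(y i) := by ring
      have h7 := v₂.nonarch (y i + y j) (-(y i))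
      rw [← e, AbsoluteValue.map_neg] at h7
      rcases le_max_iff.mp h7 with h8 | h8
      · exact h8
      · exact absurd h8 (not_le.mpr h3)
    rcases lt_or_gt_of_ne hij with h | h
    · exact ⟨j, key i j h⟩
    · refine ⟨i, ?_⟩
      rw [add_comm]
      exact key j i h
  obtain ⟨l, hl⟩ := hodd
  obtain ⟨a, ha⟩ : ∃ a, a = y i + y j := ⟨_, rfl⟩
  rw [← ha] at hl hcls'
  have haS : ∀ v ∈ S', v.abv a < min ε 1 := fun v hv => by
    rw [ha]
    exact (v.nonarch _ _).trans_lt (max_lt (hyS i v hv) (hyS j v hv))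
  have hai : ∀ v ∉ S', v ≠ v₂ → v ≠ v₁ → v.abv a ≤ 1 := fun v hv hv2 hv1 => by
    rw [ha]
    exact (v.nonarch _ _).trans (max_le (hyi i v hv hv2 hv1) (hyi j v hv hv2 hv1))
  have hSg : Sg g (algebraMap k M a) := by
    by_cases hsol : ∃ x : M, x ^ 2 + x = algebraMap k M a
    · obtain ⟨x, hx⟩ := hsol
      exact ⟨x, 0, by rw [← hx]; ring⟩
    · push Not at hsol
      refine sg_of_norm h2M hg (hasse_two h2M hsol fun ω => ?_)
      obtain ⟨v, c, hc0, hc⟩ := Hey.H63.exists_below (k := k) ω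
      have hab : Ab ω v := ⟨c, hc0, hc⟩
      by_cases hv : v ∈ ({v₁, v₂} : Set (Place k))
      · exact ln_of_sg h2M (hcls' ω ⟨v, hv, hab⟩)
      · rw [Set.mem_insert_iff, Set.mem_singleton_iff, not_or] at hv
        by_cases hvS : v ∈ S'
        · refine Spl2.ln h2M ?_ g
          obtain ⟨z, hz⟩ := exists_as h2M (ω := ω) (t := algebraMap M ω.comp (algebraMap k M a)) (by
            rw [norm_alg, hc]
            exact Real.rpow_lt_one (v.abv.nonneg _) ((haS v hvS).trans_le (min_le_right _ _)) hc0)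
          exact ⟨z, hz⟩
        · refine ln_unit h2M ?_ ?_
          · rw [hc]
            exact Real.rpow_le_one (v.abv.nonneg _) (hai v hvS hv.2 hv.1) hc0.le
          · by_contra hcon
            apply hvS
            rw [hS', Finset.mem_union]
            exact Or.inr (hbadf.mem_toFinset.mpr ⟨ω, hcon, hab⟩)
  obtain ⟨p, r, hpr⟩ := hSg
  refine ⟨a, p, r, hpr, fun v hv => ?_, fun z hz => ?_, fun z => odd_pole hl hc₂ z⟩
  · exact (haS v (by rw [hS']; exact Finset.mem_union_left _ hv)).trans_le (min_le_left _ _)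
  · refine odd_pole (c := 0) hl (by rw [map_zero]; exact zero_le_one) z ?_
    rw [hz, add_zero]

end Vale.Agent.P011.H871.C2
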