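import Vale.Agent.P011.H961.R5TwoLoc
import Vale.Agent.P011.H271.KSF
import Vale.Agent.P011.H738.ProsolvFF

/-!
# The group `z ^ 2 + z + g w ^ 2` over a local field of characteristic two has finite index
-/

open Module

set_option linter.unusedSectionVars false

namespace Vale.Agent.P011.H871.C2

open Vale.Agent.P011.H738 Vale.Agent.P011.H271 Vale.Agent.P011.H961.C2

/-- The elements `z ^ 2 + z + g w ^ 2`. -/
def Sg {L : Type} [Field L] (g x : L) : Prop := ∃ z w : L, x = z ^ 2 + z + g * w ^ 2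

theorem Sg.add {L : Type} [Field L] (h3 : (2 : L) = 0) {g x y : L} (hx : Sg g x) (hy : Sg g y) :
    Sg g (x + y) := by
  obtain ⟨z, w, rfl⟩ := hx
  obtain ⟨z', w', rfl⟩ := hy
  refine ⟨z + z', w + w', ?_⟩
  linear_combination -(z * z' + g * w * w') * h3

section low

variable {L : Type} [NontriviallyNormedField L] [ProperSpace L]

/-- The form `u ^ 2 + g w ^ 2` is bounded below. -/
theorem exists_low (h3 : (2 : L) = 0) {g : L} (hg : ¬ IsSquare g) :
    ∃ δ : ℝ, 0 < δ ∧ ∀ u w : L, δ * ‖u‖ ^ 2 ≤ ‖u ^ 2 + g * w ^ 2‖ := by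
  have hg0 : g ≠ 0 := by
    rintro rfl
    exact hg ⟨0, (mul_zero 0).symm⟩
  obtain ⟨f, hf⟩ : ∃ f : L × L → ℝ, ∀ p, f p = ‖p.1 ^ 2 + g * p.2 ^ 2‖ := ⟨_, fun _ => rfl⟩
  have hfc : Continuous f := by
    rw [show f = fun p => ‖p.1 ^ 2 + g * p.2 ^ 2‖ from funext hf]
    fun_prop
  have hne : ∀ p : L × L, f p = 0 → p = 0 := by
    rintro ⟨u, w⟩ h
    rw [hf, norm_eq_zero] at h
    dsimp only at h
    have hw : w = 0 := by
      by_contra hw
      apply hg
      refine ⟨u / w, ?_⟩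
      field_simp
      linear_combination g * w ^ 2 * h3 - h
    rw [hw, zero_pow two_ne_zero, mul_zero, add_zero] at h
    rw [(pow_eq_zero_iff two_ne_zero).mp h, hw]
    rfl
  obtain ⟨c, hc⟩ := NormedField.exists_one_lt_norm L
  have hc0 : 0 < ‖c‖ := one_pos.trans hc
  obtain ⟨K, hK⟩ : ∃ K : Set (L × L), K = Metric.closedBall 0 1 ∩ {p | 1 / ‖c‖ ≤ ‖p‖} :=
    ⟨_, rfl⟩
  have hKc : IsCompact K := by
    rw [hK]
    exact (isCompact_closedBall _ _).inter_right (isClosed_le continuous_const continuous_norm)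
  obtain ⟨δ, hδ, hδK⟩ : ∃ δ : ℝ, 0 < δ ∧ ∀ p ∈ K, δ ≤ f p := by
    by_cases hKn : K.Nonempty
    · obtain ⟨p₀, hp₀, hmin⟩ := hKc.exists_isMinOn hKn hfc.continuousOn
      refine ⟨f p₀, ?_, fun p hp => hmin hp⟩
      refine lt_of_le_of_ne ?_ fun h => ?_
      · rw [hf]
        exact norm_nonneg _
      · have h1 := hne p₀ h.symm
        rw [hK, h1] at hp₀
        have h2 := hp₀.2
        change 1 / ‖c‖ ≤ ‖(0 : L × L)‖ at h2
        rw [norm_zero] at h2
        exact absurd h2 (not_le.mpr (by positivity))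
    · exact ⟨1, one_pos, fun p hp => absurd ⟨p, hp⟩ hKn⟩
  refine ⟨δ, hδ, fun u w => ?_⟩
  by_cases hp : (u, w) = (0 : L × L)
  · have h1 : u = 0 := congrArg Prod.fst hp
    rw [h1, norm_zero, zero_pow two_ne_zero, mul_zero]
    exact norm_nonneg _
  · obtain ⟨d, hd0, hd1, hd2, -⟩ := rescale_to_shell hc one_pos hp
    have hd0' : 0 < ‖d‖ := norm_pos_iff.mpr hd0
    have h1 : δ ≤ f (d • (u, w)) := by
      refine hδK _ ?_
      rw [hK]
      exact ⟨by rw [Metric.mem_closedBall, dist_zero_right]; exact hd1.le, hd2⟩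
    rw [hf] at h1
    have h2 : (d • (u, w)).1 ^ 2 + g * (d • (u, w)).2 ^ 2 = d ^ 2 * (u ^ 2 + g * w ^ 2) := by
      simp only [Prod.smul_mk, smul_eq_mul]
      ring
    rw [h2, norm_mul, norm_pow] at h1
    have h3 : ‖d‖ * ‖u‖ ≤ 1 := by
      rw [← norm_mul]
      exact ((norm_fst_le (d • (u, w))).trans hd1.le)
    have h4 : (‖d‖ * ‖u‖) ^ 2 ≤ 1 := pow_le_one₀ (by positivity) h3
    have h5 : ‖d‖ ^ 2 * (δ * ‖u‖ ^ 2) ≤ ‖d‖ ^ 2 * ‖u ^ 2 + g * w ^ 2‖ := by
      calc ‖d‖ ^ 2 * (δ * ‖u‖ ^ 2) = δ * (‖d‖ * ‖u‖) ^ 2 := by ring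
        _ ≤ δ * 1 := mul_le_mul_of_nonneg_left h4 hδ.le
        _ = δ := mul_one _
        _ ≤ _ := h1
    exact le_of_mul_le_mul_left h5 (by positivity)

end low

variable {F : Type} [Field F] [GFF F]

section loc

variable (h2 : (2 : F) = 0) {ω : Place F}

include h2

theorem sg_small {g x : ω.comp} (hx : ‖x‖ < 1) : Sg g x := by
  obtain ⟨y, hy⟩ := exists_as h2 hx
  exact ⟨y, 0, by rw [← hy]; ring⟩

theorem sg_split {g x : ω.comp} (hg : IsSquare g) (hg0 : g ≠ 0) : Sg g x := by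
  obtain ⟨r, rfl⟩ := hg
  have hr : r ≠ 0 := fun h => hg0 (by rw [h, mul_zero])
  have h3 := two_comp h2 ω
  refine ⟨x, x / r, ?_⟩
  field_simp
  linear_combination -(x ^ 2) * h3

/-- Everything is congruent to a bounded element. -/
theorem exists_bdd {g : ω.comp} (hg : ¬ IsSquare g)
    (hsq : ∀ x : ω.comp, ∃ u w : ω.comp, x = u ^ 2 + g * w ^ 2) :
    ∃ C : ℝ, ∀ x : ω.comp, ∃ y : ω.comp, ‖y‖ ≤ C ∧ Sg g (x + y) := by
  have h3 := two_comp h2 ω
  obtain ⟨δ, hδ, hlow⟩ := @exists_low ω.comp (ntComp ω) inferInstance h3 g hg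
  obtain ⟨C, hC⟩ : ∃ C : ℝ, C = 1 + δ⁻¹ := ⟨_, rfl⟩
  have hC1 : 1 ≤ C := by
    rw [hC]
    have : 0 < δ⁻¹ := inv_pos.mpr hδ
    linarith
  have hCδ : δ⁻¹ ≤ C := by rw [hC]; linarith
  have key : ∀ N : ℕ, ∀ x : ω.comp, ‖x‖ ≤ C * 2 ^ (N + 1) → ∃ y : ω.comp, ‖y‖ ≤ C * 2 ∧
      Sg g (x + y) := by
    intro N
    induction N with
    | zero =>
      intro x hx
      refine ⟨x, by simpa using hx, 0, 0, ?_⟩
      linear_combination x * h3
    | succ N ih =>
      intro x hx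
      obtain ⟨u, w, huw⟩ := hsq x
      have h4 := hlow u w
      rw [← huw] at h4
      have h5 : ‖u‖ ^ 2 ≤ (C * 2 ^ (N + 1)) ^ 2 := by
        have h6 : ‖u‖ ^ 2 ≤ δ⁻¹ * ‖x‖ := by
          rw [← div_eq_inv_mul, le_div_iff₀ hδ, mul_comm]
          exact h4
        calc ‖u‖ ^ 2 ≤ δ⁻¹ * ‖x‖ := h6
          _ ≤ C * (C * 2 ^ (N + 1 + 1)) :=
              mul_le_mul hCδ hx (norm_nonneg _) (by linarith)
          _ ≤ (C * 2 ^ (N + 1)) ^ 2 := by
              have h7 : (2 : ℝ) ^ (N + 1 + 1) ≤ (2 ^ (N + 1)) ^ 2 := by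
                rw [← pow_mul]
                exact pow_le_pow_right₀ (by norm_num) (by omega)
              nlinarith [mul_le_mul_of_nonneg_left h7 (by positivity : (0 : ℝ) ≤ C * C)]
      have h8 : ‖u‖ ≤ C * 2 ^ (N + 1) := by
        have h9 := abs_le_of_sq_le_sq h5 (by positivity)
        rwa [abs_of_nonneg (norm_nonneg _)] at h9
      obtain ⟨y, hy, hSg⟩ := ih u h8
      refine ⟨y, hy, ?_⟩
      have h10 : Sg g (x + u) := by
        refine ⟨u, w, ?_⟩
        rw [huw]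
        ring
      have h11 := h10.add h3 hSg
      have e : x + u + (u + y) = x + y := by linear_combination u * h3
      rwa [e] at h11
  refine ⟨C * 2, fun x => ?_⟩
  obtain ⟨N, hN⟩ := pow_unbounded_of_one_lt ‖x‖ (by norm_num : (1 : ℝ) < 2)
  refine key N x ?_
  calc ‖x‖ ≤ 2 ^ N := hN.le
    _ ≤ 2 ^ (N + 1) := pow_le_pow_right₀ (by norm_num) (by omega)
    _ ≤ C * 2 ^ (N + 1) := le_mul_of_one_le_left (by positivity) hC1

/-- The classes are finite in number. -/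
theorem exists_cls {g : ω.comp} (hg0 : g ≠ 0)
    (hsq : ¬ IsSquare g → ∀ x : ω.comp, ∃ u w : ω.comp, x = u ^ 2 + g * w ^ 2) :
    ∃ (n : ℕ) (cl : ω.comp → Fin n), ∀ x y, cl x = cl y → Sg g (x + y) := by
  classical
  have h3 := two_comp h2 ω
  by_cases hg : IsSquare g
  · exact ⟨1, fun _ => 0, fun x y _ => sg_split h2 hg hg0⟩
  obtain ⟨C, hC⟩ := exists_bdd h2 hg (hsq hg)
  choose r hr hrS using hC
  obtain ⟨t, ht, hfin, hcov⟩ := (isCompact_closedBall (0 : ω.comp) C).finite_cover_balls one_pos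
  have hc : ∀ x : ω.comp, ∃ c ∈ t, r x ∈ Metric.ball c 1 := by
    intro x
    have h4 := hcov (show r x ∈ Metric.closedBall 0 C by
      rw [Metric.mem_closedBall, dist_zero_right]
      exact hr x)
    simpa using h4
  choose c hct hcb using hc
  have := hfin.to_subtype
  obtain ⟨n, ⟨e⟩⟩ := Finite.exists_equiv_fin t
  refine ⟨n, fun x => e ⟨c x, hct x⟩, fun x y hxy => ?_⟩
  have h4 : c x = c y := congrArg Subtype.val (e.injective hxy)
  have h5 : Sg g (r x + r y) := by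
    apply sg_small h2
    have h6 := hcb x
    have h7 := hcb y
    rw [← h4] at h7
    rw [Metric.mem_ball, dist_eq_norm] at h6 h7
    have e1 : r x + r y = (r x - c x) - (r y - c x) := by linear_combination r y * h3
    rw [e1]
    have h8 := IsUltrametricDist.norm_add_le_max (r x - c x) (-(r y - c x))
    rw [norm_neg, ← sub_eq_add_neg] at h8
    exact h8.trans_lt (max_lt h6 h7)
  have h6 := ((hrS x).add h3 h5).add h3 (hrS y)
  have e1 : x + r x + (r x + r y) + (y + r y) = x + y := by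
    linear_combination (r x + r y) * h3
  rwa [e1] at h6

end loc

end Vale.Agent.P011.H871.C2
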