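import Vale.Agent.P011.H871.C2.GlobA
import Vale.Agent.P011.H518.R8.Iso
import Vale.Agent.P011.H279.NoRootN
import Vale.Agent.P011.H558.C2.Sqb
import Vale.Agent.P011.H167.LfD

/-!
# The good element in characteristic two, over a ring which is not a division ring

`A` is a simple algebra with an anisotropic involution of the second kind over a global function
field of characteristic two, not a division ring. There are a small `a` in `k` and a symmetric
`t` in `A` with `t * t + t = a`, such that the centraliser of `t` is a division ring and that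
`a` is not of the form `z * z + z` over the centre.
-/

open Module Matrix Polynomial

set_option linter.unusedSectionVars false

namespace Vale.Agent.P011.H871.C2

open Vale.Agent.P011.H738 Vale.Agent.P011.H271 Vale.Agent.P011S
open Vale.Agent.P011.H518.R8
open Vale.Agent.P011.H961 (SetG)

/-! ### The centraliser -/

/-- A matrix which commutes with `T` and kills a nonzero matrix gives a root in the corner. -/
theorem root_of_comm {C : Type} [DivisionRing C] {T N Y : Matrix (Fin 2) (Fin 2) C} {a : C}
    (hT : T * T + T = Matrix.scalar (Fin 2) a) (hc : N * T = T * N) (hN0 : N ≠ 0)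
    (hY : Y ≠ 0) (hNY : N * Y = 0) : ∃ z : C, z * z + z = a := by
  have ent : ∀ i j, T i 0 * T 0 j + T i 1 * T 1 j + T i j = if i = j then a else 0 := by
    intro i j
    have h := congrFun (congrFun hT i) j
    rw [Matrix.add_apply, Matrix.mul_apply, Fin.sum_univ_two, Matrix.scalar_apply,
      Matrix.diagonal_apply] at h
    exact h
  have e00 := ent 0 0
  have e01 := ent 0 1
  have e11 := ent 1 1
  rw [if_pos rfl] at e00 e11
  rw [if_neg (by decide)] at e01
  -- the action on columns
  have hNT : ∀ y0 y1 : C, (∀ i, N i 0 * y0 + N i 1 * y1 = 0) →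
      ∀ i, N i 0 * (T 0 0 * y0 + T 0 1 * y1) + N i 1 * (T 1 0 * y0 + T 1 1 * y1) = 0 := by
    intro y0 y1 h i
    have c0 := congrFun (congrFun hc i) 0
    have c1 := congrFun (congrFun hc i) 1
    rw [Matrix.mul_apply, Matrix.mul_apply, Fin.sum_univ_two, Fin.sum_univ_two] at c0 c1
    calc N i 0 * (T 0 0 * y0 + T 0 1 * y1) + N i 1 * (T 1 0 * y0 + T 1 1 * y1)
        = (N i 0 * T 0 0 + N i 1 * T 1 0) * y0 + (N i 0 * T 0 1 + N i 1 * T 1 1) * y1 := by
          noncomm_ring
      _ = (T i 0 * N 0 0 + T i 1 * N 1 0) * y0 + (T i 0 * N 0 1 + T i 1 * N 1 1) * y1 := by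
          rw [c0, c1]
      _ = T i 0 * (N 0 0 * y0 + N 0 1 * y1) + T i 1 * (N 1 0 * y0 + N 1 1 * y1) := by
          noncomm_ring
      _ = 0 := by rw [h 0, h 1, mul_zero, mul_zero, add_zero]
  -- a nonzero column
  obtain ⟨l, hl⟩ : ∃ l, ¬ (Y 0 l = 0 ∧ Y 1 l = 0) := by
    by_contra hcon
    push Not at hcon
    apply hY
    ext i l
    fin_cases i
    · exact (hcon l).1
    · exact (hcon l).2
  have hYl : ∀ i, N i 0 * Y 0 l + N i 1 * Y 1 l = 0 := by
    intro i
    have h := congrFun (congrFun hNY i) l
    rwa [Matrix.mul_apply, Fin.sum_univ_two, Matrix.zero_apply] at h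
  by_cases h0 : Y 0 l = 0
  · have h1 : Y 1 l ≠ 0 := fun h => hl ⟨h0, h⟩
    have hN1 : ∀ i, N i 1 = 0 := by
      intro i
      have h := hYl i
      rw [h0, mul_zero, zero_add] at h
      exact (mul_eq_zero.mp h).resolve_right h1
    have h01 : T 0 1 = 0 := by
      by_contra hcon
      apply hN0
      have h := hNT 0 1 (fun i => by rw [hN1 i, mul_zero, zero_mul, add_zero])
      have hN00 : ∀ i, N i 0 = 0 := by
        intro i
        have h2 := h i
        rw [hN1 i, mul_zero, zero_add, mul_one, zero_mul, add_zero] at h2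
        exact (mul_eq_zero.mp h2).resolve_right hcon
      ext i j
      fin_cases j
      · exact hN00 i
      · exact hN1 i
    refine ⟨T 1 1, ?_⟩
    rw [← e11, h01, mul_zero, zero_add]
  · obtain ⟨b, hb⟩ : ∃ b, b = Y 1 l * (Y 0 l)⁻¹ := ⟨_, rfl⟩
    have hNb : ∀ i, N i 0 * 1 + N i 1 * b = 0 := by
      intro i
      have h := congrArg (· * (Y 0 l)⁻¹) (hYl i)
      simp only [add_mul, zero_mul, mul_assoc] at h
      rwa [mul_inv_cancel₀ h0, ← hb] at h
    obtain ⟨α, hα⟩ : ∃ α, α = T 0 0 + T 0 1 * b := ⟨_, rfl⟩
    have hβ : T 1 0 + T 1 1 * b = b * α := by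
      by_contra hcon
      apply hN0
      have h := hNT 1 b hNb
      have h1 : ∀ i, N i 1 = 0 := by
        intro i
        have h2 := h i
        rw [mul_one, mul_one, ← hα] at h2
        have h3 : N i 0 * α + N i 1 * (b * α) = 0 := by
          have h4 := congrArg (· * α) (hNb i)
          simp only [add_mul, zero_mul, mul_one, mul_assoc] at h4
          exact h4
        have h5 : N i 1 * (T 1 0 + T 1 1 * b - b * α) = 0 := by
          rw [mul_sub, sub_eq_zero]
          exact add_left_cancel (h2.trans h3.symm)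
        exact (mul_eq_zero.mp h5).resolve_right (sub_ne_zero.mpr hcon)
      ext i j
      fin_cases j
      · have h2 := hNb i
        rw [h1 i, zero_mul, add_zero, mul_one] at h2
        exact h2
      · exact h1 i
    refine ⟨α, ?_⟩
    have h1 : α * α + α = (T 0 0 * T 0 0 + T 0 1 * T 1 0 + T 0 0) +
        (T 0 0 * T 0 1 + T 0 1 * T 1 1 + T 0 1) * b := by
      calc α * α + α = T 0 0 * α + T 0 1 * (b * α) + α := by
            nth_rewrite 1 [hα]
            noncomm_ring
        _ = _ := by
            rw [← hβ, hα]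
            noncomm_ring
    rw [h1, e00, e01, zero_mul, add_zero]

/-- An element which is not a unit is a zero divisor. -/
theorem exists_zero {K A : Type} [Field K] [Ring A] [Algebra K A] [FiniteDimensional K A]
    {c : A} (hc : ¬ IsUnit c) : ∃ y : A, y ≠ 0 ∧ c * y = 0 := by
  by_contra hcon
  push Not at hcon
  apply hc
  have hinj : Function.Injective (LinearMap.mulLeft K c) := by
    intro x y hxy
    by_contra hne
    refine hcon (x - y) (sub_ne_zero.mpr hne) ?_
    rw [mul_sub]
    exact sub_eq_zero.mpr hxy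
  obtain ⟨x, hx⟩ := (LinearMap.injective_iff_surjective.mp hinj) 1
  have hx1 : c * x = 1 := hx
  have hx2 : x * c = 1 := by
    by_contra hne
    refine hcon (x * c - 1) (sub_ne_zero.mpr hne) ?_
    rw [mul_sub, ← mul_assoc, hx1, one_mul, mul_one, sub_self]
  exact ⟨⟨c, x, hx1, hx2⟩, rfl⟩

/-! ### Roots over the quadratic extension -/

theorem no_wp {k K : Type} [Field k] [Field K] [StarRing K] [Algebra k K] (h2 : (2 : k) = 0)
    (hfix : ∀ x : K, star x = x ↔ x ∈ Set.range (algebraMap k K)) {κ : K}
    (hκ : κ + star κ = 1) {ν : k} (hν : κ * κ + κ = algebraMap k K ν) {a : k}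
    (h0 : ∀ z : k, z ^ 2 + z ≠ a) (h1 : ∀ z : k, z ^ 2 + z ≠ a + ν) (z : K) :
    z * z + z ≠ algebraMap k K a := by
  intro hz
  have h2K : (2 : K) = 0 := by rw [← map_ofNat (algebraMap k K) 2, h2, map_zero]
  have hinj := (algebraMap k K).injective
  obtain ⟨y, hy⟩ : z + star z ∈ Set.range (algebraMap k K) :=
    (hfix _).mp (by rw [star_add, star_star, add_comm])
  have hsy : star (algebraMap k K y) = algebraMap k K y := (hfix _).mpr ⟨y, rfl⟩
  obtain ⟨x, hx⟩ : z + algebraMap k K y * κ ∈ Set.range (algebraMap k K) := by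
    rw [← hfix, star_add, star_mul', hsy]
    have e1 : star z = algebraMap k K y - z := by rw [hy]; ring
    have e2 : star κ = 1 - κ := by rw [← hκ]; ring
    rw [e1, e2]
    linear_combination (algebraMap k K y - z - algebraMap k K y * κ) * h2K
  have hzz : z = algebraMap k K x + algebraMap k K y * κ := by
    rw [hx]
    linear_combination (-(algebraMap k K y * κ)) * h2K
  have hsx : star (algebraMap k K x) = algebraMap k K x := (hfix _).mpr ⟨x, rfl⟩
  have hκκ : κ * κ = algebraMap k K ν - κ := by rw [← hν]; ring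
  -- compare with the conjugate equation
  have hyy : y * y + y = 0 := by
    have hs : star z * star z + star z = algebraMap k K a := by
      rw [← star_mul, ← star_add, hz]
      exact (hfix _).mpr ⟨a, rfl⟩
    apply hinj
    rw [map_add, map_mul, map_zero, hy]
    linear_combination hz + hs + (z * star z + algebraMap k K a) * h2K
  have hy01 : y = 0 ∨ y = 1 := by
    have h3 : y * (y + 1) = 0 := by rw [← hyy]; ring
    rcases mul_eq_zero.mp h3 with h | h
    · exact Or.inl h
    · right
      linear_combination h - h2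
  rcases hy01 with rfl | rfl
  · apply h0 x
    apply hinj
    rw [map_zero, zero_mul, add_zero] at hzz
    rw [map_add, map_pow, ← hz, hzz]
    ring
  · apply h1 x
    apply hinj
    rw [map_one, one_mul] at hzz
    rw [map_add, map_pow, map_add, ← hz, hzz, ← hν]
    linear_combination (-(algebraMap k K x * κ) - κ * κ - κ) * h2K

/-! ### The element -/

variable {k K A : Type} [Field k] [GFF k] [Field K] [StarRing K] [Ring A] [StarRing A]
  [Algebra k K] [Algebra k A] [Algebra K A] [IsScalarTower k K A] [StarModule K A] {n : ℕ}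

theorem exists_tR (hA : Anis k K A n) (hn : n ≠ 0) (h2 : (2 : k) = 0)
    (hdiv : ∃ x : A, x ≠ 0 ∧ ¬ IsUnit x) {κ : K} (hκ : κ + star κ = 1) {ν : k}
    (hν : κ * κ + κ = algebraMap k K ν) (S₀ : Finset (Place k)) {ε₀ : ℝ} (hε₀ : 0 < ε₀) :
    ∃ (a : k) (t : A), star t = t ∧ t * t + t = algebraMap k A a ∧ (∀ v ∈ S₀, v.abv a < ε₀) ∧
      (∀ z : k, z ^ 2 + z ≠ a) ∧ (∀ z : k, z ^ 2 + z ≠ a + ν) ∧
      (∀ z : K, z * z + z ≠ algebraMap k K a) ∧
      ∀ c : A, c * t = t * c → c ≠ 0 → IsUnit c := by
  classical
  obtain ⟨P⟩ := exists_pe hA hn hdiv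
  obtain ⟨d, hnd, hd⟩ := P.exists_deg hA.finrank_eq
  have hd0 : d ≠ 0 := by rintro rfl; exact hn (by rw [hnd])
  have hC := P.anis hA hd
  have hS : SetG k K P.Cr := H961.anis_toG hC hd0
  have hfA : FiniteDimensional K A := by
    refine FiniteDimensional.of_finrank_pos ?_
    rw [hA.finrank_eq]
    positivity
  have := hS.fin
  have := hS.finK
  have hfk : FiniteDimensional k P.Cr := FiniteDimensional.trans k K P.Cr
  have hfix := hA.fixed
  have hk : ∀ a : k, star (algebraMap k P.Cr a) = algebraMap k P.Cr a := by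
    intro a
    rw [IsScalarTower.algebraMap_apply k K P.Cr, ← algebraMap_star_comm,
      (hfix _).mpr ⟨a, rfl⟩]
  obtain ⟨S, ε, hε, hno⟩ := H279.Art.no_root_of_near hS h2 hd
  obtain ⟨E, _, _, _, _, j, g, hg, hgen⟩ := H167.Lf.exists_gen (finBasis k P.Cr) P.gg
  have h2E : (2 : E) = 0 := by rw [← map_ofNat (algebraMap k E) 2, h2, map_zero]
  have hst : ∀ x : E, star (j x) = j x := by
    intro x
    obtain ⟨p, rfl⟩ := hgen x
    induction p using Polynomial.induction_on' with
    | add p q hp hq => rw [map_add, map_add, star_add, hp, hq]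
    | monomial m c =>
      rw [Polynomial.aeval_monomial, map_mul, map_pow, hg, j.commutes, star_mul, star_pow,
        P.star_gg, hk]
      exact (Algebra.commutes c (P.gg ^ m)).symm
  have hcm : ∀ x y : E, j x * j y = j y * j x := fun x y => by rw [← map_mul, mul_comm, map_mul]
  -- the coefficient is not a square
  have hgsq : ¬ IsSquare g := by
    rintro ⟨s, hs⟩
    have hani := P.isAnisotropic hA.anisotropic
    have hgs : P.gg = j s * j s := by rw [← map_mul, ← hs, hg]
    have hs0 : j s ≠ 0 := fun h => P.gg_ne (by rw [hgs, h, mul_zero])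
    have h2C : (1 : P.Cr) + 1 = 0 := by
      have h := congrArg j h2E
      rwa [map_ofNat, map_zero, ← one_add_one_eq_two] at h
    have hv := hani.2 ![1, j s] (by
      have e1 : (P.HH *ᵥ ![1, j s]) = ![1, P.gg⁻¹ * j s] := by
        ext i
        rw [Pe.HH, Matrix.mulVec_diagonal]
        fin_cases i <;> simp
      rw [e1, dotProduct, Fin.sum_univ_two]
      change star (1 : P.Cr) * 1 + star (j s) * (P.gg⁻¹ * j s) = 0
      rw [star_one, one_mul, hst, hgs, _root_.mul_inv_rev, mul_assoc, inv_mul_cancel₀ hs0, mul_one,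
        mul_inv_cancel₀ hs0, h2C])
    have h1 := congrFun hv 0
    simp at h1
  obtain ⟨a, p, r, hapr, haS, ha0, ha1⟩ := exists_a (M := E) h2 hgsq
    (fun ω t ht x => H558.C2.sqb_comp h2E _ ht x) ν (S ∪ S₀) (lt_min hε hε₀)
  have haK := no_wp h2 hfix hκ hν ha0 ha1
  have hnr := hno a (fun v hv => (haS v (Finset.mem_union_left _ hv)).trans_le
    (min_le_left _ _)) haK
  obtain ⟨T, hT⟩ : ∃ T : Matrix (Fin 2) (Fin 2) P.Cr,
      T = !![j p, j r; j g * j r, j p + 1] := ⟨_, rfl⟩
  have hTT : T * T + T = Matrix.scalar (Fin 2) (algebraMap k P.Cr a) := by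
    have hTE : T = !![j p, j r; j (g * r), j (p + 1)] := by rw [hT, map_mul, map_add, map_one]
    have hz : ∀ i l, (T * T + T) i l = Matrix.scalar (Fin 2) (algebraMap k P.Cr a) i l := by
      intro i l
      rw [Matrix.add_apply, Matrix.mul_apply, Fin.sum_univ_two, Matrix.scalar_apply,
        Matrix.diagonal_apply, hTE]
      fin_cases i <;> fin_cases l
      · change j p * j p + j r * j (g * r) + j p = algebraMap k P.Cr a
        rw [← map_mul, ← map_mul, ← map_add, ← map_add, ← j.commutes, hapr]
        congr 1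
        ring
      · change j p * j r + j r * j (p + 1) + j r = 0
        rw [← map_mul, ← map_mul, ← map_add, ← map_add, ← map_zero j]
        congr 1
        linear_combination (p * r + r) * h2E
      · change j (g * r) * j p + j (p + 1) * j (g * r) + j (g * r) = 0
        rw [← map_mul, ← map_mul, ← map_add, ← map_add, ← map_zero j]
        congr 1
        linear_combination (g * r * p + g * r) * h2E
      · change j (g * r) * j r + j (p + 1) * j (p + 1) + j (p + 1) = algebraMap k P.Cr a
        rw [← map_mul, ← map_mul, ← map_add, ← map_add, ← j.commutes, hapr]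
        congr 1
        linear_combination (p + 1) * h2E
    ext i l
    exact hz i l
  have hTs : T * P.HI = P.HI * Tᴴ := by
    have hz : ∀ i l, (T * P.HI) i l = (P.HI * Tᴴ) i l := by
      intro i l
      rw [Pe.HI, Matrix.mul_diagonal, Matrix.diagonal_mul, Matrix.conjTranspose_apply, ← hg, hT]
      fin_cases i <;> fin_cases l
      · change j p * 1 = 1 * star (j p)
        rw [hst, mul_one, one_mul]
      · change j r * j g = 1 * star (j g * j r)
        rw [star_mul, hst, hst, one_mul]
      · change j g * j r * 1 = j g * star (j r)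
        rw [hst, mul_one]
      · change (j p + 1) * j g = j g * star (j p + 1)
        rw [star_add, star_one, hst, add_mul, mul_add, hcm, one_mul, mul_one]
    ext i l
    exact hz i l
  have hmx : ∀ c : k, P.mx (algebraMap k A c) = Matrix.scalar (Fin 2) (algebraMap k P.Cr c) := by
    intro c
    rw [IsScalarTower.algebraMap_apply k K A, IsScalarTower.algebraMap_apply k K P.Cr,
      Algebra.algebraMap_eq_smul_one, P.mx_smul, map_one, Algebra.algebraMap_eq_smul_one,
      Matrix.scalar_apply]
    ext i l
    rw [Matrix.smul_apply, Matrix.one_apply, Matrix.diagonal_apply]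
    split_ifs
    · rfl
    · exact smul_zero _
  refine ⟨a, P.mx.symm T, ?_, ?_, fun v hv => (haS v (Finset.mem_union_right _ hv)).trans_le
    (min_le_right _ _), ha0, ha1, haK, fun c hc hc0 => ?_⟩
  · apply P.mx.injective
    have h := P.mx_star (P.mx.symm T)
    rw [P.mx.apply_symm_apply, ← hTs] at h
    rw [P.mx.apply_symm_apply]
    have h3 := congrArg (· * P.HH) h
    simp only [mul_assoc, P.HI_HH, mul_one] at h3
    exact h3
  · apply P.mx.injective
    rw [map_add, map_mul, P.mx.apply_symm_apply, hTT, hmx]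
  · by_contra hcu
    obtain ⟨y, hy0, hy⟩ := exists_zero (K := K) hcu
    have hc' := congrArg P.mx hc
    rw [map_mul, map_mul, P.mx.apply_symm_apply] at hc'
    have hy' := congrArg P.mx hy
    rw [map_mul, map_zero] at hy'
    obtain ⟨z, hz⟩ := root_of_comm hTT hc' ((map_ne_zero_iff P.mx P.mx.injective).mpr hc0)
      ((map_ne_zero_iff P.mx P.mx.injective).mpr hy0) hy'
    exact hnr z hz

end Vale.Agent.P011.H871.C2
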